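import Vale.Agent.P287D.Api.Zar
import Vale.Agent.P287D.Va.Alg
import Vale.Agent.P287D.Pb.Up
import Vale.Agent.P287D.Pb.Res
import Vale.Agent.P287D.Cb.Row
import Vale.Agent.P287D.Ru.St
import Vale.Agent.P287D.Pg.Uni
import Vale.Agent.P287D.Ad.Eff
import Vale.Agent.P287D.Ad.Main
import Vale.Agent.P287D.Cv.Fld

/-!
# P287D: fields with a canonical form; fibrations in rational curves over such fields
-/

open Set Filter Topology

noncomputable section

namespace Vale.Agent.P287D.Sg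

variable {n : ℕ} {K K' : Type} [Field K] [Algebra ℂ K] [Field K'] [Algebra ℂ K']
  {L : IntermediateField ℂ K} {X Γ M Z : BD K} {P : Pl K}

/-- there is a canonical form -/
def NU (n : ℕ) (K : Type) [Field K] [Algebra ℂ K] : Prop :=
  ∃ w : K, w ≠ 0 ∧ 0 ≤ cn K n + dv w

theorem nu_of_H0 (h : H0 (cn K n) ≠ ⊥) : NU n K := by
  obtain ⟨w, a, b⟩ := Submodule.exists_mem_ne_zero_of_ne_bot h
  exact ⟨w, b, add_comm (dv w) _ ▸ (mem_H0.1 a).resolve_left b⟩

theorem nu_of_pg (h : pg K n ≠ 0) : NU n K :=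
  nu_of_H0 fun e => h (by rw [pg, h0, e, finrank_bot])

theorem NU.H0_ne (h : NU n K) : H0 (cn K n) ≠ ⊥ := fun e => by
  obtain ⟨w, a, b⟩ := h
  have : w ∈ H0 (cn K n) := mem_H0.2 (.inr (add_comm (dv w) _ ▸ b))
  exact a (by simpa [e] using this)

theorem NU.pg (h : NU (n + 1) K) (hK : FF K (n + 1)) : pg K (n + 1) ≠ 0 := by
  have := Api.mod.fin n K hK _ (Api.mod.isb n K hK).2.1
  have := Submodule.nontrivial_iff_ne_bot.2 h.H0_ne
  exact Module.finrank_pos.ne'

theorem down (φ : K →ₐ[ℂ] K') (hK : FF K n) (hK' : FF K' n) (P : Pl K') :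
    ∃ Q, Lies (φ : K →+* K') P Q := by
  let _ := (φ : K →+* K').toAlgebra
  have : IsScalarTower ℂ K K' := .of_algebraMap_eq fun c => (φ.commutes c).symm
  exact Pb.down hK hK' P

theorem NU.up (h : NU n K) (φ : K →ₐ[ℂ] K') (hK : FF K n) (hK' : FF K' n) : NU n K' := by
  obtain ⟨w, a, b⟩ := h
  obtain ⟨f, f0, e⟩ := Cb.pb_hur n K K' (φ : K →+* K') hK hK' φ.commutes
  have a' : (φ : K →+* K') w ≠ 0 := (map_ne_zero _).2 a
  refine ⟨f * (φ : K →+* K') w, mul_ne_zero f0 a', fun P => ?_⟩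
  obtain ⟨Q, l⟩ := down φ hK hK' P
  have e1 := e P Q l
  have e2 : (1 : ℝ) ≤ P.ord ((φ : K →+* K') Q.t) := by exact_mod_cast l.e_pos
  have e3 := b Q
  rw [dv_mul f0 a']
  simp only [Pi.add_apply, Pi.zero_apply, dv_apply, l.ord w, Int.cast_mul] at e1 e3 ⊢
  nlinarith [mul_nonneg (zero_le_one.trans e2) e3]

theorem big_pb (φ : K →ₐ[ℂ] K') (hK : FF K n) (hK' : FF K' n) (h : Smp X) (b : Big X) :
    Big (pb (φ : K →+* K') X) := by
  refine (big_iff_fld ((hK'.ok φ).smp h).eff).2 (eq_top_iff.2 fun x _ => ?_)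
  rw [mem_fld_pb hK' φ h, b.fld_eq]
  obtain ⟨p, p0, hp⟩ := Cb.alg_of_ff hK hK' (φ := (φ : K →+* K')) φ.commutes x
  let ψ : K →+* (⊤ : IntermediateField ℂ K).map φ :=
    (φ : K →+* K').codRestrict _ fun a => ⟨a, trivial, rfl⟩
  refine ⟨p.map ψ, (Polynomial.map_ne_zero_iff ψ.injective).2 p0, ?_⟩
  rw [Polynomial.aeval_def, Polynomial.eval₂_map]
  exact hp

theorem NU.hor (h : NU n L) (hK : FF K (n + 1)) (hL : FF L n) (hP : Hor L P) : NU n P.κ :=
  h.up (On.rE P L hP) hL (Gm.ff_κ P hK)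

theorem res_hor (hK : FF K (n + 1)) (hP : Hor L P) {β : BD L} (hβ : β ∈ Car L) :
    res P (pb (inc L) β) = pb (On.rE P L hP : L →+* P.κ) β :=
  Pb.res_trv res' hK (hK.ok_sub L) hP.trv (fun f => On.rE_apply P hP f)
    ((Gm.ff_κ P hK).ok (On.rE P L hP)) hβ

theorem on_hor (hK : FF K (n + 1)) (hL : FF L n) {A : BD L} (a : Smp A) (b : Big A) (hX : Smp X)
    (d : Dsc X (pb (inc L) A)) (hP : Hor L P) : On n X P :=
  (res'.on n K hK X P hX).2 ((res_dsc hK P d).big
    (res_hor hK hP a.car ▸ big_pb _ hL (Gm.ff_κ P hK) a b))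

/-- finitely many horizontal places in the support -/
theorem hor_fin (hK : FF K (n + 1)) (hL : FF L n) (hZ : IsB n Z) :
    {P | Hor L P ∧ Z P ≠ 0}.Finite := by
  obtain ⟨s, -, a⟩ := exists_big hK
  obtain ⟨u, -, b⟩ := exists_big hL
  have c := (hK.ok_sub L).smp (smp_mx u)
  exact (Pr.fin_on res' hK ((smp_mx s).add c) (a.add_smp c) hZ).subset fun P hP =>
    ⟨on_hor hK hL (smp_mx u) b ((smp_mx s).add c) (.add_self (smp_mx s) c) hP.1, hP.2⟩

theorem isB_car (hK : FF K (n + 1)) (h : Z ∈ Car K) : IsB n Z := (Api.mod.isb n K hK).1 Z h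

theorem isB_dsc (hK : FF K (n + 1)) (h : Γ ∈ Car K) : IsB n (dsc (n + 1) Γ) :=
  In.IsB.sub (Api.mod.isb n K hK).2.1 (isB_car hK h)

theorem NU.eff (h : NU (n + 1) K) (hK : FF K (n + 1)) (a : Smp X) (b : Big X) (d : Dsc X Γ)
    (e : Bdy n X Γ) : Eff Γ := by
  obtain ⟨w, -, k⟩ := h
  refine eff_iff.2 ⟨dv w, dv_mem_Prn w, Pr.hart res' hK a b (d.add (.dv a w)) fun P hP => ?_⟩
  have := k P
  have := e P hP
  simp only [dsc, Pi.add_apply, Pi.sub_apply, Pi.zero_apply] at *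
  linarith

/-- a pair with an effective boundary is not anti-big over a smaller base -/
theorem NU.big (h : NU (n + 1) K) (hK : FF K (n + 1)) (a : Smp X) (b : Big X) (d : Dsc X Γ)
    (e : Bdy n X Γ) (k : Big (M - Γ)) : Big M := by
  simpa using k.add_eff (h.eff hK a b d e)

theorem NU.on (hU : UNI) (h : NU n P.κ) (hK : FF K (n + 1)) (a : Smp X) (b : Big X)
    (d : Dsc X Γ) (e : Bdy n X Γ) (k : -1 < dsc (n + 1) Γ P) : On n X P :=
  by_contra fun c => h.H0_ne (hU.pg res' hK a b d e c k).1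

theorem NU.le (hU : UNI) (h : NU n P.κ) (hK : FF K (n + 1)) (a : Smp X) (b : Big X)
    (d : Dsc X Γ) (e : Bdy n X Γ) : dsc (n + 1) Γ P ≤ 0 := by
  rcases lt_or_ge (-1) (dsc (n + 1) Γ P) with k | k
  exacts [e P (h.on hU hK a b d e k), k.trans (by norm_num)]

theorem dsc_adj (hK : FF K (n + 1)) (d : Dsc X Γ) : Dsc (res P X) (adj n P Γ) :=
  (res_dsc hK P d).congr (a1 n K hK P Γ d.car).2.1

/-- adjunction to a component of coefficient one -/
theorem NU.big_res (h3 : A3) (h : NU (n + 1) P.κ) (hK : FF K (n + 2)) (a : Smp X) (b : Big X)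
    (o : On (n + 1) X P) (d : Dsc X Γ) (e : Bdy (n + 1) X Γ) (k : dsc (n + 2) Γ P = -1)
    (m : AmpOn X (M - Γ)) : Big (res P M) := by
  have bX := (res'.on _ K hK X P a).1 o
  have cM : M ∈ Car K := by simpa using add_mem m.car d.car
  refine h.big (Gm.ff_κ P hK) (res_smp hK P a) bX (dsc_adj hK d) (h3 n K hK X P a b o Γ d e k)
    (((res_ampOn hK P m).big_iff.1 bX).congr ?_)
  rw [res_sub hK P cM d.car, sub_sub_sub_cancel_left]
  simpa using neg_mem (a1 _ K hK P Γ d.car).2.1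

theorem not_big_prn (hK : FF K (n + 1)) (h : Z ∈ Prn K) : ¬ Big Z := fun b => by
  have e := (big_iff_dim hK b.eff).1 b
  have := (fld_eq_bot_iff hK).1 (fld_prn hK h)
  omega

/-- the restriction of a pull back from a curve to a vertical place -/
theorem res_curve (hK : FF K (n + 1)) (hL : FF L 1) (hP : ¬ Hor L P) {β : BD L} (hβ : β ∈ Car L) :
    res P (pb (inc L) β) ∈ Prn P.κ := by
  obtain ⟨Q, l⟩ := (hK.ok_sub L P).resolve_left fun t => hP fun a ha => t ⟨a, ha⟩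
  have := ((Cst.of_lin (φ := inc L) fun _ => rfl).res_lies res' hL hK l l.isRd hβ).1
  rwa [show res Q β = 0 from funext fun R => (Cb.no_pl (Gm.ff_κ Q hL) R).elim, pb_zero,
    sub_zero] at this

theorem dsc_curve (hK : FF K n) (a : Smp M) (e : dim M = 1) {β : BD (fld M)} (hβ : β ∈ Car _) :
    Dsc M (pb (inc _) β) := by
  obtain ⟨M₀, s, b, p⟩ := fld_down hK a
  have hk : FF (fld M) 1 := e ▸ ff_fld hK M
  exact ((hK.ok_sub _).dsc ((Cv.dsc_iff hk s.car ((Cv.big_iff hk s.car).1 b)).2 hβ)).congr_left p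

/-- a component of a fibre over a curve -/
theorem NU.hor_curve (h3 : A3) (h : NU (n + 1) P.κ) (hK : FF K (n + 2)) (a : Smp X) (b : Big X)
    (o : On (n + 1) X P) (d : Dsc X Γ) (e : Bdy (n + 1) X Γ) (k : -1 ≤ dsc (n + 2) Γ P)
    (s : Smp M) (dM : Dsc X M) (m : AmpOn X (M - Γ)) (e1 : dim M = 1) : Hor (fld M) P := by
  intro v hv
  by_contra c
  have hk : FF (fld M) 1 := e1 ▸ ff_fld hK M
  have nh : ¬ Hor (fld M) P := fun t => c (t v hv)
  have ez : pb (inc (fld M)) (pld ⟨v, hv⟩) = pld v := (hK.ok_sub _).pb_pld _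
  have dz : Dsc X (pld v) := dM.trans (ez ▸ dsc_curve hK s e1 (pld_car _))
  have z := pld_pos.2 c
  set x := (dsc (n + 2) Γ P + 1) / pld v P with hx
  have x0 : 0 ≤ x := div_nonneg (by linarith) z.le
  obtain ⟨M₀, s₀, -, p⟩ := fld_down hK s
  refine not_big_prn (Gm.ff_κ P hK) ?_ (h.big_res h3 (Γ := Γ + x • pld v) (M := M + x • pld v) hK
    a b o (d.add (dz.smul x)) (fun Q hQ => ?_) ?_ (by simpa using m))
  · rw [res_add_smul hK P s.car (pld_car v)]
    refine add_mem ?_ (Submodule.smul_mem _ _ (ez ▸ res_curve hK hk nh (pld_car _)))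
    simpa using add_mem (res_congr hK P ((hK.ok_sub _).smp s₀).car p) (res_curve hK hk nh s₀.car)
  · have := e Q hQ
    have := mul_nonneg x0 (pld_nonneg v Q)
    simp only [dsc, Pi.add_apply, Pi.sub_apply, Pi.smul_apply, smul_eq_mul] at *
    linarith
  · have := div_mul_cancel₀ (dsc (n + 2) Γ P + 1) z.ne'
    simp only [dsc, Pi.add_apply, Pi.sub_apply, Pi.smul_apply, smul_eq_mul] at *
    rw [hx]
    linarith

/-- the base curve is dominated by the base of the fibration -/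
theorem NU.fld_le (hU : UNI) (h3 : A3) (h : NU (n + 1) L) (hK : FF K (n + 2)) (hL : FF L (n + 1))
    (cl : Cld L) (a : Smp X) (b : Big X) (d : Dsc X Γ) (e : Bdy (n + 1) X Γ) (s : Smp M)
    (dM : Dsc X M) (m : AmpOn X (M - Γ)) (e1 : dim M ≤ 1) : fld M ≤ L := by
  rcases e1.eq_or_lt with e1 | e1
  swap
  · rw [(fld_eq_bot_iff hK).2 (by omega)]
    exact bot_le
  intro u hu
  by_contra c
  have ex : ∀ z : ℂ, ∃ P : Pl K, Hor L P ∧ (u - algebraMap ℂ K z)⁻¹ ∉ P.ring := fun z =>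
    exists_pole hK fun t => c (by
      simpa using add_mem (inv_mem (cl _ t)) (L.algebraMap_mem z))
  choose P hP hP' using ex
  have inj : Function.Injective P := fun z z' q => by
    by_contra ne
    have k : ∀ z, u - algebraMap ℂ K z ∈ (P z).ring.nonunits := fun z =>
      (ValuationSubring.mem_nonunits_iff_or _).2 (.inr (hP' z))
    have k2 := (P z).ring.nonunits.sub_mem (q ▸ k z') (k z)
    rw [sub_sub_sub_cancel_left, ← map_sub, ValuationSubring.mem_nonunits_iff_or, map_eq_zero,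
      ← map_inv₀] at k2
    exact k2.elim (sub_ne_zero.2 ne) fun t => t ((P z).con _)
  obtain ⟨z, hz⟩ := ((hor_fin hK hL (isB_dsc hK d.car)).preimage inj.injOn).exists_notMem
  have z0 : dsc (n + 2) Γ (P z) = 0 := not_not.1 fun t => hz ⟨hP z, t⟩
  have nu := h.hor hK hL (hP z)
  exact hP' z (nu.hor_curve h3 hK a b (nu.on hU hK a b d e (by rw [z0]; norm_num)) d e
    (by rw [z0]; norm_num) s dM m e1 _ (inv_mem (sub_mem hu ((fld M).algebraMap_mem z))))

theorem exists_small {α : Type} {T : Set α} (hT : T.Finite) (g a : α → ℝ) (h : ∀ x ∈ T, 0 < a x) :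
    ∃ t : ℝ, 0 < t ∧ t ≤ 1 ∧ ∀ x ∈ T, t * g x < a x := by
  have k : ∀ᶠ t : ℝ in 𝓝[>] 0, ∀ x ∈ T, t * g x < a x :=
    (hT.eventually_all).2 fun x hx => nhdsWithin_le_nhds
      ((continuous_id.mul continuous_const).continuousAt.eventually_lt continuousAt_const
        (by simpa using h x hx))
  obtain ⟨t, ⟨a, b⟩, c⟩ := ((show ∀ᶠ t : ℝ in 𝓝[>] 0, t ∈ Ioc (0 : ℝ) 1 from
    Ioc_mem_nhdsGT one_pos).and k).exists
  exact ⟨t, a, b, c⟩

/-- **CBN**: over a base with a canonical form the horizontal boundary is not klt -/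
theorem cbn (hR : RUL) (h : NU n L) (hK : FF K (n + 1)) (hL : FF L n) (cl : Cld L) (co : Con L)
    (a : Smp X) (b : Big X) (e : Bdy n X Γ) (dM : Dsc X M) (s : Smp (M - Γ)) (g : Big (M - Γ))
    {M₀ : BD L} (p : M - pb (inc L) M₀ ∈ Prn K)
    (k : ∀ P, Hor L P → -1 < dsc (n + 1) Γ P ∧ dsc (n + 1) Γ P ≤ 0) : Big M₀ := by
  have ok := hK.ok_sub L
  obtain ⟨u, -, bu⟩ := exists_big hL
  have su := ok.smp (smp_mx u)
  obtain ⟨ε, ε0, G, r⟩ := g.exists_eff su.car
  have cG := r.car (sub_mem s.car (Submodule.smul_mem _ _ su.car))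
  obtain ⟨t, t0, t1, ht⟩ := exists_small (hor_fin hK hL (isB_car hK cG)) G
    (fun P => dsc (n + 1) Γ P + 1) fun P hP => by linarith [(k P hP.1).1]
  have ed : ∀ P, dsc (n + 1) (Γ + t • G) P = dsc (n + 1) Γ P - t * G P := fun P => by
    simp only [dsc, Pi.add_apply, Pi.sub_apply, Pi.smul_apply, smul_eq_mul]
    ring
  obtain ⟨Z, z1, z2⟩ := hR n K L (Γ + t • G) ((1 - t) • (M - Γ)) (M₀ - (t * ε) • mx u)
    ⟨hK, hL, cl, co, s.smul (sub_nonneg.2 t1), by
      have := add_mem (Submodule.smul_mem _ t r.prn) p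
      rw [pb_sub, pb_smul]
      rwa [show t • (G - (M - Γ - ε • pb (inc L) (mx u))) + (M - pb (inc L) M₀) =
        Γ + t • G + (1 - t) • (M - Γ) - (pb (inc L) M₀ - (t * ε) • pb (inc L) (mx u)) by
          module] at this,
      fun P hP => by
        rw [ed]
        linarith [(k P hP).2, mul_nonneg t0.le (r.nonneg P)],
      fun P hP => by
        rw [ed]
        by_cases q : G P = 0
        · rw [q]
          linarith [(k P hP).1]
        · linarith [ht P ⟨hP, q⟩]⟩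
  obtain ⟨w, -, hw⟩ := h
  have pD : Z + (cn L n + dv w) - (M₀ - (t * ε) • mx u) ∈ Prn L := by
    have := add_mem z1 (dv_mem_Prn w)
    rwa [show Z - (M₀ - (t * ε) • mx u - cn L n) + dv w =
      Z + (cn L n + dv w) - (M₀ - (t * ε) • mx u) by abel] at this
  have p2 : -pb (inc L) (Z + (cn L n + dv w)) - (-M + (t * ε) • pb (inc L) (mx u)) ∈ Prn K := by
    have := sub_mem p (ok.prn pD)
    rw [pb_sub, pb_sub, pb_smul] at this
    rwa [show ∀ a b c : BD K, M - a - (b - (a - c)) = -b - (-M + c) from fun _ _ _ => by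
      abel] at this
  obtain ⟨c, -, hc⟩ := dM.neg.exists_add
  have D0 : 0 ≤ Z + (cn L n + dv w) := by
    refine (Pb.nonneg_iff (φ := inc L) (fun _ => rfl) hK).1 (neg_nonpos.1 (Pr.neg res' hK (c := c)
      a b ?_ (((hc c le_rfl).add (su.smul (mul_pos t0 ε0).le)).nef.congr ?_) fun P hP => ?_))
    · simpa using add_mem (Prn_le_Car p2)
        (add_mem (neg_mem dM.car) (Submodule.smul_mem _ (t * ε) su.car))
    · rwa [show ∀ a b c d : BD K, a + b - (c + b + d) = a - (c + d) from fun _ _ _ _ => by abel]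
    · rw [Pi.neg_apply, neg_nonpos]
      rcases ok P with q | ⟨Q, l⟩
      · exact (q.pb _).ge
      have e1 : (1 : ℝ) ≤ P.ord (inc L Q.t) := by exact_mod_cast l.e_pos
      have e2 := z2 P Q l
      have e3 := mul_nonneg (zero_le_one.trans e1) (hw Q)
      rw [ed] at e2
      rw [l.pb, Pi.add_apply, mul_add]
      linarith [e P hP, mul_nonneg t0.le (r.nonneg P)]
  simpa using (bu.smul (mul_pos t0 ε0)).add_eff ⟨_, D0, pD⟩

end Vale.Agent.P287D.Sg
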